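import Vale.Agent.P269.G1.H302.DH

/-!
# [D] descendants, row DF
-/

namespace Vale.Agent.P269.G1.H302

open Vale.Agent.P269.CI
open Vale.Agent.P269.H597 (coh)

variable {X : CompleteIntersection} {n : ℕ} (E : Fam X n) {F : ℕ → ℕ → List (Ins X) → ℂ}

lemma coeff_sr (A : ℕ → List (Ins X) → ℂ) (α : Fin n →₀ ℕ) :
    MvPowerSeries.coeff α (sr E A) = ((∏ i, (α i).factorial : ℕ) : ℚ)⁻¹ •
      PowerSeries.mk (fun d => A d ((lst α).map E.ins)) := rfl

lemma sr_add (A B : ℕ → List (Ins X) → ℂ) :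
    sr E (fun d L => A d L + B d L) = sr E A + sr E B := by
  ext α : 1
  rw [map_add, coeff_sr, coeff_sr, coeff_sr, ← smul_add]
  congr 1

lemma sr_zero : sr E (fun _ _ => 0) = 0 := by
  ext α : 1
  rw [coeff_sr, map_zero]
  have : (PowerSeries.mk fun _ => (0 : ℂ)) = 0 := by
    ext
    simp
  rw [this, smul_zero]

lemma sr_sum {ι : Type*} (s : Finset ι) (A : ι → ℕ → List (Ins X) → ℂ) :
    sr E (fun d L => ∑ i ∈ s, A i d L) = ∑ i ∈ s, sr E (A i) := by
  classical
  induction s using Finset.induction_on with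
  | empty => simpa using sr_zero E
  | insert a s ha ih =>
    rw [Finset.sum_insert ha, ← ih, ← sr_add]
    congr 1
    funext d L
    rw [Finset.sum_insert ha]

lemma sr_cmul (c : ℂ) (A : ℕ → List (Ins X) → ℂ) :
    sr E (fun d L => c * A d L) = cb n c * sr E A := by
  ext α : 1
  rw [cb, MvPowerSeries.coeff_C_mul, coeff_sr, coeff_sr, mul_smul_comm]
  congr 1
  ext d
  simp

/-- functions of the point of the small phase space -/
def Sm (h1 : IsGenusOne F) (f : RB n) : Prop :=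
  ∀ i, MvPowerSeries.pderiv (PowerSeries ℂ) i f =
    ∑ b, wB E h1 i 0 b * MvPowerSeries.pderiv (PowerSeries ℂ) (E.i0 b) f

lemma Sm.add {h1 : IsGenusOne F} {f g : RB n} (hf : Sm E h1 f) (hg : Sm E h1 g) :
    Sm E h1 (f + g) := by
  intro i
  rw [map_add, hf i, hg i, ← Finset.sum_add_distrib]
  refine Finset.sum_congr rfl fun b _ => ?_
  rw [map_add, mul_add]

lemma Sm.cb (h1 : IsGenusOne F) (c : ℂ) : Sm E h1 (cb n c) := by
  intro i
  simp only [G1.cb, MvPowerSeries.pderiv_C, mul_zero, Finset.sum_const_zero]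

lemma Sm.zero (h1 : IsGenusOne F) : Sm E h1 (0 : RB n) := by
  intro i
  simp only [map_zero, mul_zero, Finset.sum_const_zero]

lemma Sm.cmul {h1 : IsGenusOne F} {f : RB n} (hf : Sm E h1 f) (c : ℂ) :
    Sm E h1 (G1.cb n c * f) := by
  have e : ∀ i, MvPowerSeries.pderiv (PowerSeries ℂ) i (G1.cb n c * f) =
      G1.cb n c * MvPowerSeries.pderiv (PowerSeries ℂ) i f := by
    intro i
    rw [Derivation.leibniz, smul_eq_mul, smul_eq_mul]
    simp only [G1.cb, MvPowerSeries.pderiv_C, mul_zero, add_zero]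
  intro i
  rw [e, hf i, Finset.mul_sum]
  refine Finset.sum_congr rfl fun b _ => ?_
  rw [e, mul_left_comm]

lemma Sm.sum {h1 : IsGenusOne F} {ι : Type*} (s : Finset ι) {f : ι → RB n}
    (hf : ∀ i ∈ s, Sm E h1 (f i)) : Sm E h1 (∑ i ∈ s, f i) := by
  classical
  induction s using Finset.induction_on with
  | empty => simpa using Sm.zero E h1
  | insert a s ha ih =>
    rw [Finset.sum_insert ha]
    exact Sm.add E (hf a (Finset.mem_insert_self a s))
      (ih fun i hi => hf i (Finset.mem_insert_of_mem hi))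

lemma sm_VB (hF : IsGW X F) (h1 : IsGenusOne F) (a b : Ins X) : Sm E h1 (VB E F a b) :=
  fun i => pderiv_VB E hF h1 i a b

lemma sm_loop (hF : IsGW X F) (h1 : IsGenusOne F) (k : ℕ) : Sm E h1 (loopB E F k) := by
  have h : loopB E F k = ∑ m ∈ Finset.range k, ∑ i ∈ Finset.range (k - m), ∑ a : Ix X,
      ∑ b : Ix X, ∑ c : Ix X,
      G1.cb n ((coh X).cf k m i a b c) * VB E F (c, k - 1 - m - i) (b, m) := by
    unfold loopB
    have h2 : (fun d L => (coh X).loop (F 0 d) k L) = fun d L =>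
        ∑ m ∈ Finset.range k, ∑ i ∈ Finset.range (k - m), ∑ a : Ix X,
          ∑ b : Ix X, ∑ c : Ix X, (coh X).cf k m i a b c *
            cor F 0 [(c, k - 1 - m - i), (b, m)] d L := rfl
    rw [h2, sr_sum]
    refine Finset.sum_congr rfl fun m _ => ?_
    rw [sr_sum]
    refine Finset.sum_congr rfl fun i _ => ?_
    rw [sr_sum]
    refine Finset.sum_congr rfl fun a _ => ?_
    rw [sr_sum]
    refine Finset.sum_congr rfl fun b _ => ?_
    rw [sr_sum]
    refine Finset.sum_congr rfl fun c _ => ?_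
    rw [sr_cmul]
    rfl
  rw [h]
  exact Sm.sum E _ fun m _ => Sm.sum E _ fun i _ => Sm.sum E _ fun a _ => Sm.sum E _ fun b _ =>
    Sm.sum E _ fun c _ => Sm.cmul E (sm_VB E hF h1 _ _) _

lemma sm_vir (hF : IsGW X F) (h1 : IsGenusOne F) (k : ℕ) :
    Sm E h1 (sr E (fun d L => virasoro X F (k + 1) 1 d L)) := by
  rw [vir_big E hF h1 k]
  refine Sm.add E (Sm.add E ?_ (Sm.cmul E (sm_loop E hF h1 k) _)) ?_
  · exact fun i => (big E hF h1).reduce (k + 1) i
  · split_ifs
    · exact Sm.cb E h1 _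
    · exact Sm.zero E h1

lemma mem_lst {α : Fin n →₀ ℕ} {i : Fin n} (h : i ∈ lst α) : α i ≠ 0 := by
  unfold lst at h
  rw [List.mem_flatMap] at h
  obtain ⟨j, -, hj⟩ := h
  obtain ⟨h0, rfl⟩ := List.mem_replicate.1 hj
  exact h0

lemma exists_map {α β : Type*} (f : α → β) (L : List β) (h : ∀ x ∈ L, ∃ a, f a = x) :
    ∃ M : List α, M.map f = L := by
  induction L with
  | nil => exact ⟨[], rfl⟩
  | cons x L ih =>
    obtain ⟨a, ha⟩ := h x (List.mem_cons_self ..)
    obtain ⟨M, hM⟩ := ih fun y hy => h y (List.mem_cons_of_mem _ hy)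
    exact ⟨a :: M, by rw [List.map_cons, ha, hM]⟩

/-- the family of all insertions of level at most `M` -/
def famAll (X : CompleteIntersection) (M : ℕ) : Fam X ((X.dim + 1) * (M + 1)) where
  e i := ((finProdFinEquiv.symm i).1, ((finProdFinEquiv.symm i).2 : ℕ))
  i0 b := finProdFinEquiv (b, 0)
  e_i0 b := by simp

lemma famAll_ins (M : ℕ) (x : Ins X) (hx : IsAmb X x) (h : x.2 ≤ M) :
    ∃ i, (famAll X M).ins i = x := by
  obtain ⟨j, hj⟩ := hx
  refine ⟨finProdFinEquiv (j, ⟨x.2, by omega⟩), ?_⟩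
  unfold Fam.ins famAll
  simp only [Equiv.symm_apply_apply]
  rw [← hj]

lemma exists_bound (L : List (Ins X)) : ∃ M, ∀ x ∈ L, x.2 ≤ M := by
  induction L with
  | nil => exact ⟨0, fun x hx => absurd hx (List.not_mem_nil)⟩
  | cons y L ih =>
    obtain ⟨M, hM⟩ := ih
    refine ⟨max y.2 M, fun x hx => ?_⟩
    rcases List.mem_cons.1 hx with rfl | hx
    · exact le_max_left _ _
    · exact (hM x hx).trans (le_max_right _ _)

/-- **[DF]** -/
theorem vir_descend (hF : IsGW X F) (h1 : IsGenusOne F) (k : ℕ)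
    (h : ∀ d (L : List (Fin (X.dim + 1))), virasoro X F (k + 1) 1 d (L.map (hpow X)) = 0)
    (d : ℕ) (L : List (Ins X)) (hL : ∀ x ∈ L, IsAmb X x) : virasoro X F (k + 1) 1 d L = 0 := by
  obtain ⟨M, hM⟩ := exists_bound L
  set E := famAll X M with hE
  obtain ⟨L', rfl⟩ := exists_map E.ins L fun x hx => famAll_ins M x (hL x hx) (hM x hx)
  have h0 : sr E (fun d L => virasoro X F (k + 1) 1 d L) = 0 := by
    refine descend (fun i => (E.e i).2) E.i0 (fun b => by rw [E.e_i0]) (fun i b => wB E h1 i 0 b)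
      _ (sm_vir E hF h1 k) fun α hα => ?_
    rw [coeff_sr]
    have e1 : (lst α).map E.ins = ((lst α).map fun i => (E.e i).1).map (hpow X) := by
      rw [List.map_map]
      refine List.map_congr_left fun i hi => ?_
      have h2 : (E.e i).2 = 0 := by
        by_contra h3
        exact mem_lst hi (hα i (Nat.pos_of_ne_zero h3))
      change ((Sum.inl (E.e i).1, (E.e i).2) : Ins X) = (Sum.inl (E.e i).1, 0)
      rw [h2]
    have e2 : (PowerSeries.mk fun d => virasoro X F (k + 1) 1 d ((lst α).map E.ins)) = 0 := by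
      ext d
      rw [PowerSeries.coeff_mk, e1, h d, map_zero]
    rw [e2, smul_zero]
  have h2 : sr E (fun d L => virasoro X F (k + 1) 1 d L) = sr E (fun _ _ => 0) := by
    rw [h0, sr_zero]
  exact sr_inj E _ _ (symF_vir E hF k) (fun _ _ _ _ => rfl) h2 d L'

end Vale.Agent.P269.G1.H302
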